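import Mathlib

namespace Vale.Agent.Lib.P042.H9

/-- From the mixed-scale recursion to the power bound with any exponent `γ ≥ 0` satisfying
`42025 ^ γ ≤ 41 * 25 ^ γ + 2050`, in particular the root of the equation. -/
theorem growth_exact (G : ℕ → ℕ) (hmono : Monotone G) (hpos : ∀ n, 1 ≤ n → 1 ≤ G n)
    (hrec : ∀ n, 41 * G (25 * n) + 2050 * G n ≤ G (42025 * n))
    (γ : ℝ) (hγ : 0 ≤ γ) (hroot : (42025 : ℝ) ^ γ ≤ 41 * (25 : ℝ) ^ γ + 2050) :
    ∃ c : ℝ, 0 < c ∧ ∀ N : ℕ, 1 ≤ N → c * (N : ℝ) ^ γ ≤ (G N : ℝ) := by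
  set c : ℝ := ((42051 : ℝ) ^ γ)⁻¹ with hc
  have hcpos : 0 < c := by positivity
  have key : ∀ N : ℕ, 1 ≤ N → c * ((N : ℝ) + 26) ^ γ ≤ (G N : ℝ) := by
    intro N
    induction N using Nat.strong_induction_on with
    | _ N ih =>
      intro hN
      by_cases hsmall : N < 42025
      · have h1 : ((N : ℝ) + 26) ^ γ ≤ (42051 : ℝ) ^ γ := by
          apply Real.rpow_le_rpow (by positivity) _ hγ
          have : (N : ℝ) ≤ 42025 := by exact_mod_cast hsmall.le
          linarith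
        have h2 : (1 : ℝ) ≤ G N := by exact_mod_cast hpos N hN
        have h3 : c * (42051 : ℝ) ^ γ = 1 := by
          rw [hc]
          exact inv_mul_cancel₀ (by positivity)
        calc c * ((N : ℝ) + 26) ^ γ ≤ c * (42051 : ℝ) ^ γ :=
              mul_le_mul_of_nonneg_left h1 hcpos.le
          _ = 1 := h3
          _ ≤ G N := h2
      · have hbig : 42025 ≤ N := not_lt.1 hsmall
        have hn1 : 1 ≤ N / 42025 := by omega
        have hle : 42025 * (N / 42025) ≤ N := Nat.mul_div_le N 42025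
        have hlt : N ≤ 42025 * (N / 42025) + 42024 := by omega
        generalize N / 42025 = n at hn1 hle hlt
        have ih1 := ih (25 * n) (by omega) (by omega)
        have ih2 := ih n (by omega) hn1
        have hG : (41 * (G (25 * n) : ℝ) + 2050 * (G n : ℝ)) ≤ (G N : ℝ) := by
          have := le_trans (hrec n) (hmono hle)
          exact_mod_cast this
        have hy0 : (0 : ℝ) ≤ (n : ℝ) + 42050 / 42025 := by positivity
        have e1 : ((25 * n : ℕ) : ℝ) + 26 = 25 * ((n : ℝ) + 26 / 25) := by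
          push_cast
          ring
        have b1 : (25 : ℝ) ^ γ * ((n : ℝ) + 42050 / 42025) ^ γ
            ≤ (((25 * n : ℕ) : ℝ) + 26) ^ γ := by
          rw [e1, Real.mul_rpow (by norm_num) (by positivity)]
          apply mul_le_mul_of_nonneg_left _ (by positivity)
          apply Real.rpow_le_rpow hy0 _ hγ
          have : (42050 : ℝ) / 42025 ≤ 26 / 25 := by norm_num
          linarith
        have b2 : ((n : ℝ) + 42050 / 42025) ^ γ ≤ ((n : ℝ) + 26) ^ γ := by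
          apply Real.rpow_le_rpow hy0 _ hγ
          have : (42050 : ℝ) / 42025 ≤ 26 := by norm_num
          linarith
        have b3 : ((N : ℝ) + 26) ^ γ
            ≤ (42025 : ℝ) ^ γ * ((n : ℝ) + 42050 / 42025) ^ γ := by
          rw [← Real.mul_rpow (by norm_num) hy0]
          apply Real.rpow_le_rpow (by positivity) _ hγ
          have h4 : (N : ℝ) ≤ 42025 * (n : ℝ) + 42024 := by exact_mod_cast hlt
          have h5 : (42025 : ℝ) * ((n : ℝ) + 42050 / 42025) = 42025 * (n : ℝ) + 42050 := by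
            ring
          linarith
        have hyg : (0 : ℝ) ≤ ((n : ℝ) + 42050 / 42025) ^ γ := by positivity
        have s1 : c * ((N : ℝ) + 26) ^ γ
            ≤ c * ((41 * (25 : ℝ) ^ γ + 2050) * ((n : ℝ) + 42050 / 42025) ^ γ) := by
          apply mul_le_mul_of_nonneg_left _ hcpos.le
          exact le_trans b3 (mul_le_mul_of_nonneg_right hroot hyg)
        have s2 : c * ((41 * (25 : ℝ) ^ γ + 2050) * ((n : ℝ) + 42050 / 42025) ^ γ)
            = 41 * (c * ((25 : ℝ) ^ γ * ((n : ℝ) + 42050 / 42025) ^ γ))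
              + 2050 * (c * ((n : ℝ) + 42050 / 42025) ^ γ) := by ring
        have s3 : c * ((25 : ℝ) ^ γ * ((n : ℝ) + 42050 / 42025) ^ γ) ≤ (G (25 * n) : ℝ) :=
          le_trans (mul_le_mul_of_nonneg_left b1 hcpos.le) ih1
        have s4 : c * ((n : ℝ) + 42050 / 42025) ^ γ ≤ (G n : ℝ) :=
          le_trans (mul_le_mul_of_nonneg_left b2 hcpos.le) ih2
        linarith
  refine ⟨c, hcpos, fun N hN => le_trans ?_ (key N hN)⟩
  apply mul_le_mul_of_nonneg_left _ hcpos.le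
  apply Real.rpow_le_rpow (by positivity) _ hγ
  linarith

theorem le_rpow_of_pow_le {x a : ℝ} (hx : 0 ≤ x) (ha : 0 ≤ a) (p q : ℕ) (hq : 0 < q)
    (h : a ^ q ≤ x ^ p) : a ≤ x ^ ((p : ℝ) / (q : ℝ)) := by
  have hq' : q ≠ 0 := by omega
  have h2 : (a ^ q) ^ ((q : ℝ)⁻¹) ≤ (x ^ p) ^ ((q : ℝ)⁻¹) :=
    Real.rpow_le_rpow (by positivity) h (by positivity)
  rw [Real.pow_rpow_inv_natCast ha hq'] at h2
  have h4 : (x ^ p) ^ ((q : ℝ)⁻¹) = x ^ ((p : ℝ) / (q : ℝ)) := by
    rw [← Real.rpow_natCast, ← Real.rpow_mul hx, div_eq_mul_inv]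
  rw [h4] at h2
  exact h2

theorem rpow_le_of_pow_le {x b : ℝ} (hx : 0 ≤ x) (hb : 0 ≤ b) (p q : ℕ) (hq : 0 < q)
    (h : x ^ p ≤ b ^ q) : x ^ ((p : ℝ) / (q : ℝ)) ≤ b := by
  have hq' : q ≠ 0 := by omega
  have h2 : (x ^ p) ^ ((q : ℝ)⁻¹) ≤ (b ^ q) ^ ((q : ℝ)⁻¹) :=
    Real.rpow_le_rpow (by positivity) h (by positivity)
  rw [Real.pow_rpow_inv_natCast hb hq'] at h2
  have h4 : (x ^ p) ^ ((q : ℝ)⁻¹) = x ^ ((p : ℝ) / (q : ℝ)) := by
    rw [← Real.rpow_natCast, ← Real.rpow_mul hx, div_eq_mul_inv]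
  rw [h4] at h2
  exact h2

theorem num1a : 531 ^ 10000 ≤ 25 ^ 7343 * 50 ^ 10000 := by decide +kernel

theorem num1b : 42025 ^ 7343 ≤ 2485 ^ 10000 := by decide +kernel

theorem num2a : 25 ^ 7344 * 10000 ^ 10000 ≤ 106335 ^ 10000 := by decide +kernel

theorem num2b : 2486 ^ 10000 ≤ 42025 ^ 7344 := by decide +kernel


theorem root_lower : (42025 : ℝ) ^ ((7343 : ℝ) / 10000)
    < 41 * (25 : ℝ) ^ ((7343 : ℝ) / 10000) + 2050 := by
  have ha : (531 / 50 : ℝ) ≤ (25 : ℝ) ^ (((7343 : ℕ) : ℝ) / ((10000 : ℕ) : ℝ)) := by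
    apply le_rpow_of_pow_le (by norm_num) (by norm_num) 7343 10000 (by norm_num)
    rw [div_pow, div_le_iff₀ (by positivity)]
    exact_mod_cast num1a
  have hb : (42025 : ℝ) ^ (((7343 : ℕ) : ℝ) / ((10000 : ℕ) : ℝ)) ≤ 2485 := by
    apply rpow_le_of_pow_le (by norm_num) (by norm_num) 7343 10000 (by norm_num)
    exact_mod_cast num1b
  have e : (((7343 : ℕ) : ℝ) / ((10000 : ℕ) : ℝ)) = (7343 : ℝ) / 10000 := by norm_num
  rw [e] at ha hb
  linarith

theorem root_upper : 41 * (25 : ℝ) ^ ((7344 : ℝ) / 10000) + 2050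
    < (42025 : ℝ) ^ ((7344 : ℝ) / 10000) := by
  have ha : (25 : ℝ) ^ (((7344 : ℕ) : ℝ) / ((10000 : ℕ) : ℝ)) ≤ 106335 / 10000 := by
    apply rpow_le_of_pow_le (by norm_num) (by norm_num) 7344 10000 (by norm_num)
    rw [div_pow, le_div_iff₀ (by positivity)]
    exact_mod_cast num2a
  have hb : (2486 : ℝ) ≤ (42025 : ℝ) ^ (((7344 : ℕ) : ℝ) / ((10000 : ℕ) : ℝ)) := by
    apply le_rpow_of_pow_le (by norm_num) (by norm_num) 7344 10000 (by norm_num)
    exact_mod_cast num2b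
  have e : (((7344 : ℕ) : ℝ) / ((10000 : ℕ) : ℝ)) = (7344 : ℝ) / 10000 := by norm_num
  rw [e] at ha hb
  linarith

/-- The equation `41 * 25 ^ γ + 2050 = 42025 ^ γ` has a root between `0.7343` and `0.7344`. -/
theorem exists_root : ∃ γ : ℝ, (7343 : ℝ) / 10000 < γ ∧ γ < 7344 / 10000 ∧
    41 * (25 : ℝ) ^ γ + 2050 = (42025 : ℝ) ^ γ := by
  have h1 : Continuous fun γ : ℝ => (42025 : ℝ) ^ γ :=
    Real.continuous_const_rpow (by norm_num)
  have h2 : Continuous fun γ : ℝ => (25 : ℝ) ^ γ :=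
    Real.continuous_const_rpow (by norm_num)
  have hcont : ContinuousOn (fun γ : ℝ => (42025 : ℝ) ^ γ - (41 * (25 : ℝ) ^ γ + 2050))
      (Set.Icc ((7343 : ℝ) / 10000) (7344 / 10000)) :=
    (h1.sub ((continuous_const.mul h2).add continuous_const)).continuousOn
  have hab : (7343 : ℝ) / 10000 ≤ 7344 / 10000 := by norm_num
  have h0 : (0 : ℝ) ∈ Set.Ioo
      ((fun γ : ℝ => (42025 : ℝ) ^ γ - (41 * (25 : ℝ) ^ γ + 2050)) (7343 / 10000))
      ((fun γ : ℝ => (42025 : ℝ) ^ γ - (41 * (25 : ℝ) ^ γ + 2050)) (7344 / 10000)) := by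
    constructor
    · have := root_lower
      simp only
      linarith
    · have := root_upper
      simp only
      linarith
  obtain ⟨γ, hγ, hγ0⟩ := intermediate_value_Ioo hab hcont h0
  refine ⟨γ, hγ.1, hγ.2, ?_⟩
  simp only at hγ0
  linarith

end Vale.Agent.Lib.P042.H9
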