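import Mathlib

namespace Vale.Agent.Lib.P042.H9

/-- `A` has no two elements differing by a positive perfect square. -/
def SDF (A : Finset ℕ) : Prop :=
  ∀ a ∈ A, ∀ b ∈ A, ∀ n : ℕ, 1 ≤ n → a ≠ b + n ^ 2

/-- There is a square-difference-free subset of `{0, ..., N-1}` with at least `k` elements. -/
def Has (N k : ℕ) : Prop :=
  ∃ A : Finset ℕ, A ⊆ Finset.range N ∧ SDF A ∧ k ≤ A.card

/-- Ten residues mod 205, pairwise without square differences mod 205, all non-squares mod 41. -/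
def IB : Finset ℕ := {85, 6, 48, 177, 14, 140, 142, 108, 29, 71}

theorem IB_card : IB.card = 10 := by decide

theorem IB_lt : ∀ r ∈ IB, r < 205 := by decide

theorem IB_sep : ∀ r ∈ IB, ∀ r' ∈ IB, ∀ j ∈ Finset.range 205,
    (r' + j * j) % 205 = r → r = r' := by decide +kernel

theorem IB_nonres : ∀ r ∈ IB, ∀ j ∈ Finset.range 41, (j * j) % 41 ≠ r % 41 := by
  decide +kernel

theorem IB_nonres' : ∀ r ∈ IB, ∀ j ∈ Finset.range 41, (r + j * j) % 41 ≠ 0 := by
  decide +kernel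

theorem Has.mono {N N' k k' : ℕ} (h : Has N k) (hN : N ≤ N') (hk : k' ≤ k) : Has N' k' := by
  obtain ⟨A, hA, hs, hc⟩ := h
  exact ⟨A, fun x hx => Finset.mem_range.2 (lt_of_lt_of_le (Finset.mem_range.1 (hA hx)) hN),
    hs, le_trans hk hc⟩

theorem has_zero (N : ℕ) : Has N 0 :=
  ⟨∅, Finset.empty_subset _, fun a ha => absurd ha (Finset.notMem_empty a), Nat.zero_le _⟩

theorem has_one {N : ℕ} (hN : 1 ≤ N) : Has N 1 := by
  refine ⟨{0}, ?_, ?_, by simp⟩
  · intro x hx
    rw [Finset.mem_singleton] at hx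
    subst hx
    exact Finset.mem_range.2 hN
  · intro a ha b hb n hn
    rw [Finset.mem_singleton] at ha hb
    subst ha hb
    have : 0 < n ^ 2 := by positivity
    omega

theorem has_le {N k : ℕ} (h : Has N k) : k ≤ N := by
  obtain ⟨A, hA, _, hc⟩ := h
  have := Finset.card_le_card hA
  rw [Finset.card_range] at this
  omega

theorem dvd41_of_sq {n : ℕ} (h : 41 ∣ n ^ 2) : 41 ∣ n :=
  Nat.Prime.dvd_of_dvd_pow (by norm_num) h

theorem dvd205_of_sq {n : ℕ} (h : 205 ∣ n ^ 2) : 205 ∣ n := by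
  have h5 : 5 ∣ n := Nat.Prime.dvd_of_dvd_pow (by norm_num) (Dvd.dvd.trans (by norm_num) h)
  have h41 : 41 ∣ n := Nat.Prime.dvd_of_dvd_pow (by norm_num) (Dvd.dvd.trans (by norm_num) h)
  exact Nat.Coprime.mul_dvd_of_dvd_of_dvd (by norm_num) h5 h41

/-- Inside the mod-41 block. -/
theorem block41 {S : Finset ℕ} (hS : SDF S) {s s' d d' n : ℕ} (hs : s ∈ S) (hs' : s' ∈ S)
    (hd : d < 41) (hd' : d' < 41) (hn : 1 ≤ n)
    (h : 1681 * s + 41 * d = 1681 * s' + 41 * d' + n ^ 2) : False := by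
  have h41 : 41 ∣ n ^ 2 := by
    generalize n ^ 2 = m at h
    omega
  obtain ⟨t, rfl⟩ := dvd41_of_sq h41
  have ht : 1 ≤ t := by
    rcases Nat.eq_zero_or_pos t with h0 | h0
    · subst h0; omega
    · exact h0
  have e : (41 * t) ^ 2 = 1681 * t ^ 2 := by ring
  rw [e] at h
  have key : s = s' + t ^ 2 := by
    generalize t ^ 2 = u at h
    omega
  exact hS s hs s' hs' t ht key

/-- Inside the mod-205 block with equal residues. -/
theorem block205 {S : Finset ℕ} (hS : SDF S) {s s' d d' r n : ℕ} (hs : s ∈ S) (hs' : s' ∈ S)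
    (hd : d < 205) (hd' : d' < 205) (hn : 1 ≤ n)
    (h : 42025 * s + 205 * d + r = 42025 * s' + 205 * d' + r + n ^ 2) : False := by
  have h205 : 205 ∣ n ^ 2 := by
    generalize n ^ 2 = m at h
    omega
  obtain ⟨t, rfl⟩ := dvd205_of_sq h205
  have ht : 1 ≤ t := by
    rcases Nat.eq_zero_or_pos t with h0 | h0
    · subst h0; omega
    · exact h0
  have e : (205 * t) ^ 2 = 42025 * t ^ 2 := by ring
  rw [e] at h
  have key : s = s' + t ^ 2 := by
    generalize t ^ 2 = u at h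
    omega
  exact hS s hs s' hs' t ht key

theorem sq_mod (n q : ℕ) : n ^ 2 % q = (n % q) * (n % q) % q := by
  rw [pow_two, Nat.mul_mod]

/-- Two elements of the mod-205 blocks whose difference is a square have the same residue. -/
theorem res205 {s s' d d' r r' n : ℕ} (hr : r ∈ IB) (hr' : r' ∈ IB)
    (h : 42025 * s + 205 * d + r = 42025 * s' + 205 * d' + r' + n ^ 2) : r = r' := by
  have hlt := IB_lt r hr
  have hj : n % 205 ∈ Finset.range 205 := Finset.mem_range.2 (Nat.mod_lt _ (by norm_num))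
  apply IB_sep r hr r' hr' (n % 205) hj
  have h2 := sq_mod n 205
  generalize n ^ 2 = m at h h2
  generalize (n % 205) * (n % 205) = w at h2 ⊢
  omega

/-- A mod-41 block element is not a mod-205 block element plus a square. -/
theorem cross1 {s s' d d' r n : ℕ} (hr : r ∈ IB)
    (h : 1681 * s + 41 * d = 42025 * s' + 205 * d' + r + n ^ 2) : False := by
  have hj : n % 41 ∈ Finset.range 41 := Finset.mem_range.2 (Nat.mod_lt _ (by norm_num))
  apply IB_nonres' r hr (n % 41) hj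
  have h2 := sq_mod n 41
  generalize n ^ 2 = m at h h2
  generalize (n % 41) * (n % 41) = w at h2 ⊢
  omega

/-- A mod-205 block element is not a mod-41 block element plus a square. -/
theorem cross2 {s s' d d' r n : ℕ} (hr : r ∈ IB)
    (h : 42025 * s' + 205 * d' + r = 1681 * s + 41 * d + n ^ 2) : False := by
  have hj : n % 41 ∈ Finset.range 41 := Finset.mem_range.2 (Nat.mod_lt _ (by norm_num))
  apply IB_nonres r hr (n % 41) hj
  have h2 := sq_mod n 41
  generalize n ^ 2 = m at h h2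
  generalize (n % 41) * (n % 41) = w at h2 ⊢
  omega


/-- The mixed-scale recursion: a mod-41 block over a set at scale `25 N` together with ten
mod-205 blocks over a set at scale `N`. -/
theorem mix {N k1 k2 : ℕ} (h1 : Has (25 * N) k1) (h2 : Has N k2) :
    Has (42025 * N) (41 * k1 + 2050 * k2) := by
  obtain ⟨S1, hS1, hsdf1, hc1⟩ := h1
  obtain ⟨S2, hS2, hsdf2, hc2⟩ := h2
  set f1 : ℕ × ℕ → ℕ := fun p => 1681 * p.1 + 41 * p.2 with hf1
  set f2 : (ℕ × ℕ) × ℕ → ℕ := fun p => 42025 * p.1.1 + 205 * p.1.2 + p.2 with hf2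
  set T1 : Finset ℕ := (S1 ×ˢ Finset.range 41).image f1 with hT1
  set T2 : Finset ℕ := ((S2 ×ˢ Finset.range 205) ×ˢ IB).image f2 with hT2
  have m1 : ∀ x, x ∈ T1 ↔ ∃ s ∈ S1, ∃ d, d < 41 ∧ x = 1681 * s + 41 * d := by
    intro x
    simp only [hT1, hf1, Finset.mem_image, Finset.mem_product, Finset.mem_range, Prod.exists]
    constructor
    · rintro ⟨s, d, ⟨hs, hd⟩, rfl⟩
      exact ⟨s, hs, d, hd, rfl⟩
    · rintro ⟨s, hs, d, hd, rfl⟩
      exact ⟨s, d, ⟨hs, hd⟩, rfl⟩
  have m2 : ∀ x, x ∈ T2 ↔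
      ∃ s ∈ S2, ∃ d, d < 205 ∧ ∃ r ∈ IB, x = 42025 * s + 205 * d + r := by
    intro x
    simp only [hT2, hf2, Finset.mem_image, Finset.mem_product, Finset.mem_range, Prod.exists]
    constructor
    · rintro ⟨s, d, r, ⟨⟨hs, hd⟩, hr⟩, rfl⟩
      exact ⟨s, hs, d, hd, r, hr, rfl⟩
    · rintro ⟨s, hs, d, hd, r, hr, rfl⟩
      exact ⟨s, d, r, ⟨⟨hs, hd⟩, hr⟩, rfl⟩
  have inj1 : Set.InjOn f1 ↑(S1 ×ˢ Finset.range 41) := by
    rintro ⟨s, d⟩ hp ⟨s', d'⟩ hp' h
    simp only [Finset.coe_product, Set.mem_prod, Finset.mem_coe, Finset.mem_range] at hp hp'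
    simp only [hf1] at h
    have : s = s' ∧ d = d' := by omega
    rw [this.1, this.2]
  have inj2 : Set.InjOn f2 ↑((S2 ×ˢ Finset.range 205) ×ˢ IB) := by
    rintro ⟨⟨s, d⟩, r⟩ hp ⟨⟨s', d'⟩, r'⟩ hp' h
    simp only [Finset.coe_product, Set.mem_prod, Finset.mem_coe, Finset.mem_range] at hp hp'
    simp only [hf2] at h
    have hr := IB_lt r hp.2
    have hr' := IB_lt r' hp'.2
    have : s = s' ∧ d = d' ∧ r = r' := by omega
    rw [this.1, this.2.1, this.2.2]
  have c1 : T1.card = 41 * S1.card := by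
    rw [hT1, Finset.card_image_of_injOn inj1, Finset.card_product, Finset.card_range, mul_comm]
  have c2 : T2.card = 2050 * S2.card := by
    rw [hT2, Finset.card_image_of_injOn inj2, Finset.card_product, Finset.card_product,
      Finset.card_range, IB_card]
    ring
  have disj : Disjoint T1 T2 := by
    rw [Finset.disjoint_left]
    intro x hx1 hx2
    obtain ⟨s, hs, d, hd, rfl⟩ := (m1 x).1 hx1
    obtain ⟨s', hs', d', hd', r, hr, h⟩ := (m2 _).1 hx2
    have h0 := IB_nonres' r hr 0 (by simp)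
    omega
  refine ⟨T1 ∪ T2, ?_, ?_, ?_⟩
  · intro x hx
    rw [Finset.mem_range]
    rcases Finset.mem_union.1 hx with hx | hx
    · obtain ⟨s, hs, d, hd, rfl⟩ := (m1 x).1 hx
      have := Finset.mem_range.1 (hS1 hs)
      omega
    · obtain ⟨s, hs, d, hd, r, hr, rfl⟩ := (m2 x).1 hx
      have := Finset.mem_range.1 (hS2 hs)
      have := IB_lt r hr
      omega
  · intro a ha b hb n hn hab
    rcases Finset.mem_union.1 ha with ha | ha <;> rcases Finset.mem_union.1 hb with hb | hb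
    · obtain ⟨s, hs, d, hd, rfl⟩ := (m1 a).1 ha
      obtain ⟨s', hs', d', hd', rfl⟩ := (m1 b).1 hb
      exact block41 hsdf1 hs hs' hd hd' hn hab
    · obtain ⟨s, hs, d, hd, rfl⟩ := (m1 a).1 ha
      obtain ⟨s', hs', d', hd', r, hr, rfl⟩ := (m2 b).1 hb
      exact cross1 hr hab
    · obtain ⟨s', hs', d', hd', r, hr, rfl⟩ := (m2 a).1 ha
      obtain ⟨s, hs, d, hd, rfl⟩ := (m1 b).1 hb
      exact cross2 hr hab
    · obtain ⟨s, hs, d, hd, r, hr, rfl⟩ := (m2 a).1 ha
      obtain ⟨s', hs', d', hd', r', hr', rfl⟩ := (m2 b).1 hb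
      have e := res205 hr hr' hab
      subst e
      exact block205 hsdf2 hs hs' hd hd' hn hab
  · rw [Finset.card_union_of_disjoint disj, c1, c2]
    have := Nat.mul_le_mul_left 41 hc1
    have := Nat.mul_le_mul_left 2050 hc2
    omega

/-- One mod-41 block alone. -/
theorem step41 {N k : ℕ} (h : Has N k) : Has (1681 * N) (41 * k) := by
  obtain ⟨S1, hS1, hsdf1, hc1⟩ := h
  set f1 : ℕ × ℕ → ℕ := fun p => 1681 * p.1 + 41 * p.2 with hf1
  set T1 : Finset ℕ := (S1 ×ˢ Finset.range 41).image f1 with hT1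
  have m1 : ∀ x, x ∈ T1 ↔ ∃ s ∈ S1, ∃ d, d < 41 ∧ x = 1681 * s + 41 * d := by
    intro x
    simp only [hT1, hf1, Finset.mem_image, Finset.mem_product, Finset.mem_range, Prod.exists]
    constructor
    · rintro ⟨s, d, ⟨hs, hd⟩, rfl⟩
      exact ⟨s, hs, d, hd, rfl⟩
    · rintro ⟨s, hs, d, hd, rfl⟩
      exact ⟨s, d, ⟨hs, hd⟩, rfl⟩
  have inj1 : Set.InjOn f1 ↑(S1 ×ˢ Finset.range 41) := by
    rintro ⟨s, d⟩ hp ⟨s', d'⟩ hp' h
    simp only [Finset.coe_product, Set.mem_prod, Finset.mem_coe, Finset.mem_range] at hp hp'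
    simp only [hf1] at h
    have : s = s' ∧ d = d' := by omega
    rw [this.1, this.2]
  have c1 : T1.card = 41 * S1.card := by
    rw [hT1, Finset.card_image_of_injOn inj1, Finset.card_product, Finset.card_range, mul_comm]
  refine ⟨T1, ?_, ?_, ?_⟩
  · intro x hx
    rw [Finset.mem_range]
    obtain ⟨s, hs, d, hd, rfl⟩ := (m1 x).1 hx
    have := Finset.mem_range.1 (hS1 hs)
    omega
  · intro a ha b hb n hn hab
    obtain ⟨s, hs, d, hd, rfl⟩ := (m1 a).1 ha
    obtain ⟨s', hs', d', hd', rfl⟩ := (m1 b).1 hb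
    exact block41 hsdf1 hs hs' hd hd' hn hab
  · rw [c1]
    exact Nat.mul_le_mul_left 41 hc1

open Classical in
/-- The largest size of a square-difference-free subset of `{0, ..., N-1}`. -/
noncomputable def G (N : ℕ) : ℕ := Nat.findGreatest (fun k => Has N k) N

theorem G_spec (N : ℕ) : Has N (G N) := by
  classical
  exact Nat.findGreatest_spec (P := fun k => Has N k) (Nat.zero_le N) (has_zero N)

theorem le_G {N k : ℕ} (h : Has N k) : k ≤ G N := by
  classical
  exact Nat.le_findGreatest (has_le h) h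

theorem G_mono : Monotone G := fun a _ hab => le_G ((G_spec a).mono hab le_rfl)

theorem G_pos {n : ℕ} (hn : 1 ≤ n) : 1 ≤ G n := le_G (has_one hn)

theorem G_rec (n : ℕ) : 41 * G (25 * n) + 2050 * G n ≤ G (42025 * n) :=
  le_G (mix (G_spec _) (G_spec _))

theorem G_step41 (n : ℕ) : 41 * G n ≤ G (1681 * n) := le_G (step41 (G_spec _))

/-- Passing from `{0, ..., N-1}` to `{1, ..., N}`. -/
theorem exists_Icc (N : ℕ) : ∃ A : Finset ℕ, A ⊆ Finset.Icc 1 N ∧
    (∀ a ∈ A, ∀ b ∈ A, ∀ n : ℕ, 1 ≤ n → a ≠ b + n ^ 2) ∧ G N ≤ A.card := by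
  obtain ⟨S, hS, hsdf, hc⟩ := G_spec N
  refine ⟨S.image (fun x => x + 1), ?_, ?_, ?_⟩
  · intro x hx
    obtain ⟨s, hs, rfl⟩ := Finset.mem_image.1 hx
    have := Finset.mem_range.1 (hS hs)
    rw [Finset.mem_Icc]
    omega
  · intro a ha b hb n hn hab
    obtain ⟨s, hs, rfl⟩ := Finset.mem_image.1 ha
    obtain ⟨s', hs', rfl⟩ := Finset.mem_image.1 hb
    apply hsdf s hs s' hs' n hn
    generalize n ^ 2 = m at hab ⊢
    omega
  · rw [Finset.card_image_of_injective _ (fun x y h => by simpa using h)]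
    exact hc

end Vale.Agent.Lib.P042.H9
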